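import Vale.Agent.P233G39.Ctx
import Vale.Agent.P233G30.Fin

/-!
# P233: Alexandrov spaces and distributional sectional curvature, with Gigli's calculus as defined
-/

open MeasureTheory Set Topology unitInterval
open scoped NNReal MeasureTheory

universe u

namespace Vale.Agent.Results.P233.AAGigliCalculus

open Vale.Agent.P233Z (IsLength IsSeg TriModel FourPoint IsCDb)
open Vale.Agent.P233G Vale.Agent.P242W

/-- Question 1 of Gigli: items 1 to 5 are the textbook definitions of an `n`-dimensional Alexandrov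
space, items 6 and 7 are condition (B), with weak upper gradients, the tangent module, divergence by
duality, Hessian and covariant derivative as tensors. This calculus is well defined
and the bound does not depend on the choice of the tangent module. -/
theorem result (M : Type u) [MetricSpace M] [CompleteSpace M] [SecondCountableTopology M]
    [MeasurableSpace M] [BorelSpace M] [MeasurableSpace C(I, M)] [BorelSpace C(I, M)]
    (n : ℕ) (hn : 2 ≤ n) (κ : ℝ) (c : ℝ≥0) (hc : c ≠ 0)
    (m : Measure M) (hm : m = c • μH[n])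
    (U : Measure M → (M → ℝ) → (M → ℝ) → Prop)
    (hU : U = IsWeakUG ∨ U = IsIntUG ∨ U = IsNewtonUG) :
    List.TFAE [
      IsLength M ∧ dimH (univ : Set M) = n ∧ LocallyCompactSpace M ∧ TriModel M κ,
      IsLength M ∧ dimH (univ : Set M) = n ∧
        ∀ o : M, ∃ V ∈ 𝓝 o, (∀ x ∈ V, ∀ y ∈ V, ∃ γ : ℝ → M, IsSeg γ x y) ∧ TriModel V κ,
      IsLength M ∧ dimH (univ : Set M) = n ∧ FourPoint M κ,
      IsLength M ∧ dimH (univ : Set M) = n ∧ ∀ o : M, ∃ V ∈ 𝓝 o, FourPoint V κ,
      IsLength M ∧ dimH (univ : Set M) = n ∧ ProperSpace M ∧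
        (∀ x y : M, ∃ γ : ℝ → M, IsSeg γ x y) ∧ TriModel M κ,
      IsHilb U m ∧ P242.IsCD ((n - 1) * κ) n m ∧ DistSec U m κ,
      IsHilb U m ∧ IsCDb ((n - 1) * κ) n m ∧ DistSec U m κ] ∧
    ∀ K, IsHilb U m → P242.IsCD K n m ∨ IsCDb K n m → WellDef U m ∧
      ∀ (H : Type u) [NormedAddCommGroup H] [InnerProductSpace ℝ H] (T : Tan U m H),
        T.SecGE κ ↔ DistSec U m κ := by
  obtain ⟨h1, h2⟩ := Vale.Agent.P233G39.final_of Vale.Agent.P233G.cal M n hn κ c hc m hm U hU
  refine ⟨h1, fun K h hcd => ⟨h2 K h hcd, fun H _ _ T => ⟨fun hT => ?_, fun hD => hD H T⟩⟩⟩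
  have hu := Vale.Agent.P233G39.hU_of hU h.fin
  obtain ⟨Gr, hG⟩ := Vale.Agent.P233G39.ctx hn hc hm hu ((Vale.Agent.P233G39.hilb_iff hu).1 h) hcd
  obtain ⟨J, s, k⟩ := exists_kit hG T
  exact ((cal M U m K Gr hG).2 κ).2 (k.of_sec hT)

end Vale.Agent.Results.P233.AAGigliCalculus
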